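import Mathlib

/-!
P022-L3 [SUP]: `T_l² f = c f` with `|c| ≥ (1+l)² l^(k-2)` has no non-zero solution among the cusp
forms of weight `k` (sup norm of `|f| y^(k/2)`).
-/

open UpperHalfPlane Filter Topology
open scoped MatrixGroups ModularForm Modular

noncomputable section

namespace Vale.Agent.P022.H673.L3

/-- `|g z| y^(k/2)` -/
def nm (k : ℤ) (g : ℍ → ℂ) (z : ℍ) : ℝ := ‖g z‖ * z.im ^ ((k : ℝ) / 2)

lemma nm_nonneg (k : ℤ) (g : ℍ → ℂ) (z : ℍ) : 0 ≤ nm k g z :=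
  mul_nonneg (norm_nonneg _) (Real.rpow_nonneg z.im_pos.le _)

/-- `(z + j) / l` -/
def dnp (l : ℕ) (hl : 0 < l) (j : ℕ) (z : ℍ) : ℍ :=
  ⟨((z : ℂ) + j) / l, by
    have h : (((z : ℂ) + j) / l).im = z.im / l := by
      rw [Complex.div_natCast_im]; simp
    rw [h]
    exact div_pos z.im_pos (by exact_mod_cast hl)⟩

lemma dnp_im (l : ℕ) (hl : 0 < l) (j : ℕ) (z : ℍ) : (dnp l hl j z).im = z.im / l := by
  have h : (((z : ℂ) + j) / l).im = z.im / l := by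
    rw [Complex.div_natCast_im]; simp
  exact h

/-- `l z` -/
def upp (l : ℕ) (hl : 0 < l) (z : ℍ) : ℍ :=
  ⟨(l : ℂ) * z, by
    have h : ((l : ℂ) * z).im = l * z.im := by simp
    rw [h]
    exact mul_pos (by exact_mod_cast hl) z.im_pos⟩

lemma upp_im (l : ℕ) (hl : 0 < l) (z : ℍ) : (upp l hl z).im = l * z.im := by
  have h : ((l : ℂ) * z).im = l * z.im := by simp
  exact h

/-- `T_l g = (1/l) ∑_(j<l) g((z+j)/l) + e l^(k-1) g(l z)` -/
def hk (k : ℤ) (l : ℕ) (hl : 0 < l) (e : ℂ) (g : ℍ → ℂ) (z : ℍ) : ℂ :=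
  (l : ℂ)⁻¹ * ∑ j ∈ Finset.range l, g (dnp l hl j z) + e * (l : ℂ) ^ (k - 1) * g (upp l hl z)

lemma nm_dnp (k : ℤ) (l : ℕ) (hl : 0 < l) (g : ℍ → ℂ) (j : ℕ) (z : ℍ) :
    (l : ℝ) ^ ((k : ℝ) / 2 - 1) * nm k g (dnp l hl j z)
      = (l : ℝ)⁻¹ * ‖g (dnp l hl j z)‖ * z.im ^ ((k : ℝ) / 2) := by
  have hl' : (0 : ℝ) < l := by exact_mod_cast hl
  rw [nm, dnp_im, Real.div_rpow z.im_pos.le hl'.le, Real.rpow_sub hl', Real.rpow_one]
  have h := (Real.rpow_pos_of_pos hl' ((k : ℝ) / 2)).ne'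
  field_simp

lemma nm_upp (k : ℤ) (l : ℕ) (hl : 0 < l) (g : ℍ → ℂ) (z : ℍ) :
    (l : ℝ) ^ ((k : ℝ) / 2 - 1) * nm k g (upp l hl z)
      = (l : ℝ) ^ (k - 1) * ‖g (upp l hl z)‖ * z.im ^ ((k : ℝ) / 2) := by
  have hl' : (0 : ℝ) < l := by exact_mod_cast hl
  rw [nm, upp_im, Real.mul_rpow hl'.le z.im_pos.le]
  have h : (l : ℝ) ^ (k - 1) = (l : ℝ) ^ ((k : ℝ) / 2 - 1) * (l : ℝ) ^ ((k : ℝ) / 2) := by
    rw [← Real.rpow_add hl', ← Real.rpow_intCast]
    congr 1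
    push_cast
    ring
  rw [h]
  ring

lemma nm_hk (k : ℤ) (l : ℕ) (hl : 0 < l) (e : ℂ) (he : ‖e‖ ≤ 1) (g : ℍ → ℂ) (z : ℍ) :
    nm k (hk k l hl e g) z ≤ (l : ℝ) ^ ((k : ℝ) / 2 - 1) *
      (∑ j ∈ Finset.range l, nm k g (dnp l hl j z) + nm k g (upp l hl z)) := by
  have hl' : (0 : ℝ) < l := by exact_mod_cast hl
  rw [mul_add, Finset.mul_sum, nm_upp, Finset.sum_congr rfl fun j _ => nm_dnp k l hl g j z]
  have hy : 0 ≤ z.im ^ ((k : ℝ) / 2) := Real.rpow_nonneg z.im_pos.le _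
  have h1 : ‖hk k l hl e g z‖ ≤ (∑ j ∈ Finset.range l, (l : ℝ)⁻¹ * ‖g (dnp l hl j z)‖)
      + (l : ℝ) ^ (k - 1) * ‖g (upp l hl z)‖ := by
    rw [hk]
    refine (norm_add_le _ _).trans (add_le_add ?_ ?_)
    · rw [norm_mul, norm_inv, Complex.norm_natCast, ← Finset.mul_sum]
      exact mul_le_mul_of_nonneg_left (norm_sum_le _ _) (by positivity)
    · rw [norm_mul, norm_mul, norm_zpow, Complex.norm_natCast]
      have h2 : ‖e‖ * (l : ℝ) ^ (k - 1) ≤ 1 * (l : ℝ) ^ (k - 1) :=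
        mul_le_mul_of_nonneg_right he (by positivity)
      rw [one_mul] at h2
      exact mul_le_mul_of_nonneg_right h2 (norm_nonneg _)
  calc nm k (hk k l hl e g) z = ‖hk k l hl e g z‖ * z.im ^ ((k : ℝ) / 2) := rfl
    _ ≤ ((∑ j ∈ Finset.range l, (l : ℝ)⁻¹ * ‖g (dnp l hl j z)‖)
      + (l : ℝ) ^ (k - 1) * ‖g (upp l hl z)‖) * z.im ^ ((k : ℝ) / 2) :=
        mul_le_mul_of_nonneg_right h1 hy
    _ = _ := by rw [add_mul, Finset.sum_mul]

/-- the sup norm argument -/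
theorem sup_zero (k : ℤ) (l : ℕ) (hl : 1 < l) (e : ℂ) (he : ‖e‖ ≤ 1) (f : ℍ → ℂ) (z0 : ℍ)
    (hmax : ∀ z, nm k f z ≤ nm k f z0) (hdec : Tendsto (nm k f) atImInfty (𝓝 0)) (c : ℂ)
    (hc : (1 + l : ℝ) ^ 2 * (l : ℝ) ^ (k - 2) ≤ ‖c‖)
    (hE : ∀ z, hk k l (by omega) e (hk k l (by omega) e f) z = c * f z) : f = 0 := by
  have hl0 : 0 < l := by omega
  have hl' : (0 : ℝ) < l := by exact_mod_cast hl0
  set S := nm k f z0 with hS
  have hS0 : 0 ≤ S := nm_nonneg _ _ _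
  set a : ℝ := (l : ℝ) ^ ((k : ℝ) / 2 - 1) with ha
  have ha0 : 0 < a := Real.rpow_pos_of_pos hl' _
  have haa : a * a = (l : ℝ) ^ (k - 2) := by
    rw [ha, ← Real.rpow_add hl', ← Real.rpow_intCast]
    congr 1
    push_cast
    ring
  -- the first application
  have h1 : ∀ w, nm k (hk k l hl0 e f) w ≤ a * ((l + 1) * S) := by
    intro w
    refine (nm_hk k l hl0 e he f w).trans (mul_le_mul_of_nonneg_left ?_ ha0.le)
    have h2 : ∑ j ∈ Finset.range l, nm k f (dnp l hl0 j w) ≤ l * S := by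
      refine (Finset.sum_le_sum fun j _ => hmax _).trans ?_
      simp
    linarith [hmax (upp l hl0 w)]
  have h3 : ∀ w, nm k (hk k l hl0 e f) w ≤ a * (l * S + nm k f (upp l hl0 w)) := by
    intro w
    refine (nm_hk k l hl0 e he f w).trans (mul_le_mul_of_nonneg_left ?_ ha0.le)
    have h2 : ∑ j ∈ Finset.range l, nm k f (dnp l hl0 j w) ≤ l * S := by
      refine (Finset.sum_le_sum fun j _ => hmax _).trans ?_
      simp
    linarith
  -- one step
  have step : ∀ z, nm k f z = S → nm k f (upp l hl0 (upp l hl0 z)) = S := by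
    intro z hz
    refine le_antisymm (hmax _) ?_
    have h4 : nm k (hk k l hl0 e (hk k l hl0 e f)) z
        ≤ a * (l * (a * ((l + 1) * S)) + a * (l * S + nm k f (upp l hl0 (upp l hl0 z)))) := by
      refine (nm_hk k l hl0 e he _ z).trans (mul_le_mul_of_nonneg_left ?_ ha0.le)
      have h2 : ∑ j ∈ Finset.range l, nm k (hk k l hl0 e f) (dnp l hl0 j z)
          ≤ l * (a * ((l + 1) * S)) := by
        refine (Finset.sum_le_sum fun j _ => h1 _).trans ?_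
        simp
      linarith [h3 (upp l hl0 z)]
    have h5 : nm k (hk k l hl0 e (hk k l hl0 e f)) z = ‖c‖ * S := by
      rw [nm, hE z, norm_mul, mul_assoc]
      congr 1
    rw [h5] at h4
    have h6 : (1 + l : ℝ) ^ 2 * (a * a) * S ≤ ‖c‖ * S := by
      rw [haa]
      exact mul_le_mul_of_nonneg_right hc hS0
    have h7 : (a * a) * ((1 + l : ℝ) ^ 2 * S)
        ≤ (a * a) * (l * ((l + 1) * S) + (l * S + nm k f (upp l hl0 (upp l hl0 z)))) := by
      nlinarith [h4, h6]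
    have h8 := le_of_mul_le_mul_left h7 (mul_pos ha0 ha0)
    nlinarith [h8]
  -- iterate
  have hit : ∀ m : ℕ, ∃ z : ℍ, nm k f z = S ∧ (4 : ℝ) ^ m * z0.im ≤ z.im := by
    intro m
    induction m with
    | zero => exact ⟨z0, rfl, by simp⟩
    | succ m ih =>
      obtain ⟨z, hz, hm⟩ := ih
      refine ⟨upp l hl0 (upp l hl0 z), step z hz, ?_⟩
      rw [upp_im, upp_im]
      have h2 : (2 : ℝ) ≤ l := by exact_mod_cast hl
      have h9 : (4 : ℝ) * z.im ≤ l * (l * z.im) := by nlinarith [z.im_pos, mul_pos hl' z.im_pos]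
      calc (4 : ℝ) ^ (m + 1) * z0.im = 4 * (4 ^ m * z0.im) := by ring
        _ ≤ 4 * z.im := by linarith
        _ ≤ _ := h9
  have hSz : S = 0 := by
    by_contra hne
    have hpos : 0 < S := lt_of_le_of_ne hS0 (Ne.symm hne)
    have hev : ∀ᶠ z in atImInfty, nm k f z < S := hdec.eventually (gt_mem_nhds hpos)
    obtain ⟨A, hA⟩ := (atImInfty_mem _).1 hev
    obtain ⟨m, hm⟩ := pow_unbounded_of_one_lt (A / z0.im) (by norm_num : (1 : ℝ) < 4)
    obtain ⟨z, hz, hz'⟩ := hit m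
    have h10 : A ≤ z.im := by
      rw [div_lt_iff₀ z0.im_pos] at hm
      linarith
    have h11 : nm k f z < S := hA z h10
    linarith
  funext z
  have h12 : nm k f z ≤ 0 := by
    have := hmax z
    rw [hSz] at this
    exact this
  have h13 : nm k f z = 0 := le_antisymm h12 (nm_nonneg _ _ _)
  rw [nm, mul_eq_zero] at h13
  rcases h13 with h13 | h13
  · simpa using h13
  · exact absurd h13 (Real.rpow_pos_of_pos z.im_pos _).ne'

/-- a continuous function `≥ 0`, invariant under a subgroup of finite index and vanishing at all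
cusps has a maximum -/
theorem exists_max (Γ : Subgroup SL(2, ℤ)) [Γ.FiniteIndex] (F : ℍ → ℝ) (hF : Continuous F)
    (h0 : ∀ z, 0 ≤ F z) (hinv : ∀ g ∈ Γ, ∀ z : ℍ, F (g • z) = F z)
    (hdec : ∀ g : SL(2, ℤ), Tendsto (fun z : ℍ => F (g • z)) atImInfty (𝓝 0)) :
    ∃ z0, ∀ z, F z ≤ F z0 := by
  classical
  by_cases hz : ∀ z, F z = 0
  · exact ⟨UpperHalfPlane.I, fun z => by rw [hz, hz]⟩
  push Not at hz
  obtain ⟨z1, hz1⟩ := hz
  have hpos : 0 < F z1 := lt_of_le_of_ne (h0 z1) (Ne.symm hz1)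
  have : Finite (SL(2, ℤ) ⧸ Γ) := Subgroup.finite_quotient_of_finiteIndex
  have : Fintype (SL(2, ℤ) ⧸ Γ) := Fintype.ofFinite _
  have hA : ∀ q : SL(2, ℤ) ⧸ Γ, ∃ A : ℝ, ∀ z : ℍ, A ≤ z.im → F ((q.out)⁻¹ • z) < F z1 := by
    intro q
    exact (atImInfty_mem _).1 ((hdec (q.out)⁻¹).eventually (gt_mem_nhds hpos))
  choose A hA using hA
  obtain ⟨B, hB⟩ : ∃ B : ℝ, ∀ q, A q ≤ B := by
    obtain ⟨B, hB⟩ := (Set.finite_range A).bddAbove
    exact ⟨B, fun q => hB ⟨q, rfl⟩⟩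
  set K := ModularGroup.truncatedFundamentalDomain B with hK
  have hKc : IsCompact K := ModularGroup.isCompact_truncatedFundamentalDomain B
  -- every point
  have key : ∀ z : ℍ, ∃ (q : SL(2, ℤ) ⧸ Γ) (w : ℍ), F z = F ((q.out)⁻¹ • w) ∧
      (w ∈ K ∨ F z < F z1) := by
    intro z
    obtain ⟨g, hg⟩ := ModularGroup.exists_smul_mem_fd z
    -- z = g⁻¹ w
    set q : SL(2, ℤ) ⧸ Γ := (QuotientGroup.mk g : SL(2, ℤ) ⧸ Γ) with hq
    obtain ⟨γ, hγ⟩ := QuotientGroup.mk_out_eq_mul Γ g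
    have h1 : F z = F ((q.out)⁻¹ • (g • z)) := by
      rw [hq, hγ, mul_inv_rev, mul_smul, inv_smul_smul]
      exact (hinv _ (Γ.inv_mem γ.2) z).symm
    refine ⟨q, g • z, h1, ?_⟩
    by_cases hB' : (g • z).im ≤ B
    · exact Or.inl ⟨hg, hB'⟩
    · right
      rw [h1]
      exact hA q _ ((hB q).trans (not_le.1 hB').le)
  -- the maximum on K for each coset
  have hKn : K.Nonempty := by
    obtain ⟨q, w, -, h⟩ := key z1
    rcases h with h | h
    · exact ⟨w, h⟩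
    · exact absurd h (lt_irrefl _)
  have hm : ∀ q : SL(2, ℤ) ⧸ Γ, ∃ w ∈ K, ∀ v ∈ K, F ((q.out)⁻¹ • v) ≤ F ((q.out)⁻¹ • w) := by
    intro q
    have hc : Continuous fun w : ℍ => F ((q.out)⁻¹ • w) := by
      have h2 : Continuous fun w : ℍ => (q.out)⁻¹ • w := by
        simp only [ModularGroup.sl_moeb]
        fun_prop
      exact hF.comp h2
    obtain ⟨w, hw, hw'⟩ := hKc.exists_isMaxOn hKn hc.continuousOn
    exact ⟨w, hw, fun v hv => hw' hv⟩
  choose w hw hw' using hm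
  obtain ⟨q0, hq0⟩ := Finite.exists_max fun q : SL(2, ℤ) ⧸ Γ => F ((q.out)⁻¹ • w q)
  refine ⟨(q0.out)⁻¹ • w q0, fun z => ?_⟩
  have hall : ∀ z : ℍ, F z ≤ F ((q0.out)⁻¹ • w q0) ∨ F z < F z1 := by
    intro z
    obtain ⟨q, v, h1, h2⟩ := key z
    rcases h2 with h2 | h2
    · left
      rw [h1]
      exact (hw' q v h2).trans (hq0 q)
    · exact Or.inr h2
  have hz1' : F z1 ≤ F ((q0.out)⁻¹ • w q0) := by
    rcases hall z1 with h | h
    · exact h
    · exact absurd h (lt_irrefl _)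
  rcases hall z with h | h
  · exact h
  · exact h.le.trans hz1'

lemma nm_sq (k : ℤ) (f : ℍ → ℂ) (z : ℍ) : nm k f z = √‖petersson k f f z‖ := by
  have h : ‖petersson k f f z‖ = (nm k f z) ^ 2 := by
    rw [petersson, norm_mul, norm_mul, Complex.norm_conj, norm_zpow, Complex.norm_real,
      Real.norm_of_nonneg z.im_pos.le, nm, mul_pow, ← Real.rpow_natCast (z.im ^ ((k : ℝ) / 2)),
      ← Real.rpow_mul z.im_pos.le, ← Real.rpow_intCast]
    have : (k : ℝ) / 2 * ((2 : ℕ) : ℝ) = (k : ℝ) := by push_cast; ring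
    rw [this]
    ring
  rw [h, Real.sqrt_sq (nm_nonneg _ _ _)]

open ConjAct Pointwise in
lemma pet_zero (k : ℤ) (Γ : Subgroup (GL (Fin 2) ℝ)) [Γ.IsArithmetic] {F : Type*}
    [FunLike F ℍ ℂ] [CuspFormClass F Γ k] (f : F) (g : SL(2, ℤ)) :
    IsZeroAtImInfty fun z : ℍ => petersson k f f (g • z) := by
  simp_rw [← UpperHalfPlane.petersson_slash_SL]
  have : ((toConjAct (g : GL (Fin 2) ℝ)⁻¹) • Γ).IsArithmetic := by
    simpa [(show Rat.castHom ℝ = algebraMap ℚ ℝ by rfl), map_inv,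
      Matrix.SpecialLinearGroup.map_mapGL] using!
      Subgroup.IsArithmetic.conj Γ (Matrix.SpecialLinearGroup.mapGL ℚ g)⁻¹
  exact (CuspFormClass.zero_at_infty <| CuspForm.translate f g).petersson_isZeroAtImInfty_left k _
    (ModularForm.translate f g)

lemma nm_dec (k : ℤ) (Γ : Subgroup (GL (Fin 2) ℝ)) [Γ.IsArithmetic] {F : Type*}
    [FunLike F ℍ ℂ] [CuspFormClass F Γ k] (f : F) (g : SL(2, ℤ)) :
    Tendsto (fun z : ℍ => nm k f (g • z)) atImInfty (𝓝 0) := by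
  have h1 := pet_zero k Γ f g
  have h2 : Tendsto (fun z : ℍ => ‖petersson k f f (g • z)‖) atImInfty (𝓝 0) := by
    have h := Filter.Tendsto.norm h1
    rwa [norm_zero] at h
  have h3 := (Real.continuous_sqrt.tendsto 0).comp h2
  rw [Real.sqrt_zero] at h3
  refine h3.congr fun z => ?_
  simp only [Function.comp]
  rw [nm_sq]

lemma nm_cont (k : ℤ) (Γ : Subgroup (GL (Fin 2) ℝ)) [Γ.IsArithmetic] {F : Type*}
    [FunLike F ℍ ℂ] [CuspFormClass F Γ k] (f : F) : Continuous (nm k f) := by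
  have h1 : (nm k f) = fun z => √‖petersson k f f z‖ := funext fun z => nm_sq k f z
  rw [h1]
  have : Continuous (petersson k f f) := by fun_prop
  exact Real.continuous_sqrt.comp this.norm

/-- **[SUP]** -/
theorem cusp_zero {k : ℤ} (Γ : Subgroup (GL (Fin 2) ℝ)) [Γ.IsArithmetic] {F : Type*}
    [FunLike F ℍ ℂ] [CuspFormClass F Γ k] (f : F) (l : ℕ) (hl : 1 < l) (e : ℂ) (he : ‖e‖ ≤ 1)
    (c : ℂ) (hc : (1 + l : ℝ) ^ 2 * (l : ℝ) ^ (k - 2) ≤ ‖c‖)
    (hE : ∀ z, hk k l (by omega) e (hk k l (by omega) e f) z = c * f z) : (f : ℍ → ℂ) = 0 := by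
  have hinv : ∀ g : SL(2, ℤ), g ∈ Γ.comap (Matrix.SpecialLinearGroup.mapGL ℝ) → ∀ z : ℍ,
      nm k f (g • z) = nm k f z := by
    intro g hg z
    rw [nm_sq, nm_sq]
    congr 1
    exact SlashInvariantFormClass.norm_petersson_smul (f := f) (f' := f) (Subgroup.mem_comap.1 hg)
  obtain ⟨z0, hz0⟩ := exists_max (Γ.comap (Matrix.SpecialLinearGroup.mapGL ℝ)) (nm k f)
    (nm_cont k Γ f) (nm_nonneg k f) hinv (nm_dec k Γ f)
  refine sup_zero k l hl e he f z0 hz0 ?_ c hc hE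
  have h := nm_dec k Γ f 1
  simpa only [one_smul] using h

end Vale.Agent.P022.H673.L3
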